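import Vale.Agent.P249.Main

/-!
# Final bound
-/

namespace Vale.Agent.P249

open Finset

/-- Bound for the number of coordinates. -/
theorem admits_bound {p : ℝ} (hp : 0 < p) {D : ℝ} (hD : 1 < D) :
    ∃ C : ℝ, 0 < C ∧ ∀ n : ℕ, 2 ≤ n → ∃ d : ℕ,
      (d : ℝ) ≤ C * ((n : ℝ) ^ (3 / 2 : ℝ) * Real.log n) ∧ Admits p D n d := by
  have hDp : 1 < D ^ p := Real.one_lt_rpow hD hp
  set δ : ℝ := (D ^ p - 1) / (D ^ p + 1) with hδdef
  have hδ : 0 < δ := div_pos (by linarith) (by linarith)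
  have hδ1 : δ < 1 := by rw [hδdef, div_lt_one (by linarith)]; linarith
  have hδD : 1 + δ = D ^ p * (1 - δ) := by
    have : D ^ p + 1 ≠ 0 := by linarith
    rw [hδdef]; field_simp; ring
  have h3p : (1 : ℝ) ≤ 3 ^ p := Real.one_le_rpow (by norm_num) hp.le
  refine ⟨40 * 3 ^ p / δ ^ 2 + 2, by positivity, fun n hn => ?_⟩
  have hn1 : (2 : ℝ) ≤ n := by exact_mod_cast hn
  have hr1 : (1 : ℝ) ≤ Real.sqrt n := Real.one_le_sqrt.mpr (by linarith)
  have hns : (n : ℝ) ^ (3 / 2 : ℝ) = n * Real.sqrt n := by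
    rw [Real.sqrt_eq_rpow, show (3 / 2 : ℝ) = 1 + 1 / 2 by norm_num,
      Real.rpow_add (by linarith), Real.rpow_one]
  have hlog2 : (1 : ℝ) / 2 ≤ Real.log 2 := by
    have := Real.log_two_gt_d9
    linarith
  have hlog : Real.log 2 ≤ Real.log n := Real.log_le_log (by norm_num) hn1
  set L := Real.log (2 * ((n : ℝ) * n)) + 1 with hL
  have hL5 : L ≤ 5 * Real.log n := by
    rw [hL, Real.log_mul (by norm_num) (by positivity), Real.log_mul (by linarith) (by linarith)]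
    linarith
  have hL0 : 0 < L := by
    have : 0 ≤ Real.log (2 * ((n : ℝ) * n)) := Real.log_nonneg (by nlinarith)
    linarith
  set M : ℝ := 3 ^ p * (2 * ((n : ℝ) * Real.sqrt n)) with hM
  have hM0 : 0 < M := by positivity
  set N : ℕ := ⌈4 * M / δ ^ 2 * L⌉₊ with hN
  have hNge : 4 * M / δ ^ 2 * L ≤ N := Nat.le_ceil _
  have hNle : (N : ℝ) ≤ 4 * M / δ ^ 2 * L + 1 := (Nat.ceil_lt_add_one (by positivity)).le
  have hN0 : 0 < N := Nat.ceil_pos.mpr (by positivity)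
  have hNcond : 2 * ((n : ℝ) * n) * Real.exp (-(N * δ ^ 2 / (4 * M))) < 1 := by
    have h1 : L ≤ N * δ ^ 2 / (4 * M) := by
      rw [le_div_iff₀ (by positivity)]
      have h2 : 4 * M / δ ^ 2 * L * δ ^ 2 ≤ N * δ ^ 2 :=
        mul_le_mul_of_nonneg_right hNge (by positivity)
      have h3 : 4 * M / δ ^ 2 * L * δ ^ 2 = L * (4 * M) := by field_simp
      linarith
    have h4 : Real.exp (-(N * δ ^ 2 / (4 * M))) ≤ Real.exp (-L) :=
      Real.exp_le_exp.mpr (by linarith)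
    have h5 : Real.exp (-L) < 1 / (2 * ((n : ℝ) * n)) := by
      rw [hL, neg_add, Real.exp_add, Real.exp_neg, Real.exp_log (by positivity), one_div]
      have h6 : Real.exp (-1) < 1 := by
        rw [Real.exp_lt_one_iff]; norm_num
      have h7 : 0 < (2 * ((n : ℝ) * n))⁻¹ := by positivity
      nlinarith
    have h8 : 0 < 2 * ((n : ℝ) * n) := by positivity
    calc 2 * ((n : ℝ) * n) * Real.exp (-(N * δ ^ 2 / (4 * M)))
        ≤ 2 * ((n : ℝ) * n) * Real.exp (-L) := mul_le_mul_of_nonneg_left h4 h8.le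
      _ < 2 * ((n : ℝ) * n) * (1 / (2 * ((n : ℝ) * n))) := mul_lt_mul_of_pos_left h5 h8
      _ = 1 := by field_simp
  refine ⟨N, ?_, fun m x => ?_⟩
  · rw [hns]
    have h1 : 4 * M / δ ^ 2 * L ≤ 4 * M / δ ^ 2 * (5 * Real.log n) :=
      mul_le_mul_of_nonneg_left hL5 (by positivity)
    have h2 : 4 * M / δ ^ 2 * (5 * Real.log n)
        = 40 * 3 ^ p / δ ^ 2 * ((n : ℝ) * Real.sqrt n * Real.log n) := by
      rw [hM]; ring
    have h3 : (1 : ℝ) ≤ 2 * ((n : ℝ) * Real.sqrt n * Real.log n) := by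
      have h4 : (1 : ℝ) ≤ n * Real.sqrt n := by nlinarith
      nlinarith
    linarith
  · obtain ⟨f, hf⟩ := core hp hδ hδ1 hn hN0 hNcond x
    have h1δ : 0 < 1 - δ := by linarith
    refine ⟨f, (1 - δ) ^ p⁻¹, Real.rpow_pos_of_pos h1δ _, fun i j => ?_⟩
    obtain ⟨h1, h2⟩ := hf i j
    have hx0 : 0 ≤ ∑ k, |x i k - x j k| ^ p :=
      Finset.sum_nonneg fun k _ => Real.rpow_nonneg (abs_nonneg _) p
    have hf0 : 0 ≤ ∑ l, |f i l - f j l| ^ p :=
      Finset.sum_nonneg fun k _ => Real.rpow_nonneg (abs_nonneg _) p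
    have hpi : 0 ≤ p⁻¹ := inv_nonneg.mpr hp.le
    unfold pnorm
    simp only [Pi.sub_apply]
    constructor
    · rw [← Real.mul_rpow h1δ.le hx0]
      exact Real.rpow_le_rpow (mul_nonneg h1δ.le hx0) h1 hpi
    · have h3 := Real.rpow_le_rpow hf0 h2 hpi
      rw [hδD, mul_assoc, Real.mul_rpow (by positivity) (mul_nonneg h1δ.le hx0),
        Real.rpow_rpow_inv (by linarith) hp.ne', Real.mul_rpow h1δ.le hx0] at h3
      rw [mul_assoc]
      exact h3

/-- The least dimension `d_p(n, D)`. -/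
noncomputable def dimP (p D : ℝ) (n : ℕ) : ℕ := sInf {d : ℕ | Admits p D n d}

end Vale.Agent.P249
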