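import Vale.Agent.P249.Main2
import Vale.Agent.P249.Final

/-!
# Final nearly linear bound
-/

namespace Vale.Agent.P249

open Finset

/-- From two-sided bounds of the `p`-th powers to the distortion. -/
lemma distort {p : ℝ} (hp : 0 < p) {D δ : ℝ} (hD : 1 < D) (hδ1 : δ < 1)
    (hδD : 1 + δ = D ^ p * (1 - δ)) {m N : ℕ} (y : Fin m → ℝ) (g : Fin N → ℝ)
    (h1 : (1 - δ) * ∑ k, |y k| ^ p ≤ ∑ l, |g l| ^ p)
    (h2 : ∑ l, |g l| ^ p ≤ (1 + δ) * ∑ k, |y k| ^ p) :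
    (1 - δ) ^ p⁻¹ * pnorm p y ≤ pnorm p g ∧ pnorm p g ≤ D * (1 - δ) ^ p⁻¹ * pnorm p y := by
  have h1δ : 0 < 1 - δ := by linarith
  have hx0 : 0 ≤ ∑ k, |y k| ^ p :=
    Finset.sum_nonneg fun k _ => Real.rpow_nonneg (abs_nonneg _) p
  have hf0 : 0 ≤ ∑ l, |g l| ^ p :=
    Finset.sum_nonneg fun k _ => Real.rpow_nonneg (abs_nonneg _) p
  have hpi : 0 ≤ p⁻¹ := inv_nonneg.mpr hp.le
  unfold pnorm
  constructor
  · rw [← Real.mul_rpow h1δ.le hx0]
    exact Real.rpow_le_rpow (mul_nonneg h1δ.le hx0) h1 hpi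
  · have h3 := Real.rpow_le_rpow hf0 h2 hpi
    rw [hδD, mul_assoc, Real.mul_rpow (by positivity) (mul_nonneg h1δ.le hx0),
      Real.rpow_rpow_inv (by linarith) hp.ne', Real.mul_rpow h1δ.le hx0] at h3
    rw [mul_assoc]
    exact h3

/-- The exponential condition. -/
lemma exp_cond {n N : ℕ} (hn : 2 ≤ n) {M δ : ℝ} (hM0 : 0 < M) (hδ : 0 < δ)
    (hNge : 4 * M / δ ^ 2 * (Real.log (2 * ((n : ℝ) * n)) + 1) ≤ N) :
    2 * ((n : ℝ) * n) * Real.exp (-(N * δ ^ 2 / (4 * M))) < 1 := by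
  have hn1 : (2 : ℝ) ≤ n := by exact_mod_cast hn
  set L := Real.log (2 * ((n : ℝ) * n)) + 1 with hL
  have h1 : L ≤ N * δ ^ 2 / (4 * M) := by
    rw [le_div_iff₀ (by positivity)]
    have h2 : 4 * M / δ ^ 2 * L * δ ^ 2 ≤ N * δ ^ 2 :=
      mul_le_mul_of_nonneg_right hNge (by positivity)
    have h3 : 4 * M / δ ^ 2 * L * δ ^ 2 = L * (4 * M) := by field_simp
    linarith
  have h4 : Real.exp (-(N * δ ^ 2 / (4 * M))) ≤ Real.exp (-L) :=
    Real.exp_le_exp.mpr (by linarith)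
  have h5 : Real.exp (-L) < 1 / (2 * ((n : ℝ) * n)) := by
    rw [hL, neg_add, Real.exp_add, Real.exp_neg, Real.exp_log (by positivity), one_div]
    have h6 : Real.exp (-1) < 1 := by
      rw [Real.exp_lt_one_iff]; norm_num
    have h7 : 0 < (2 * ((n : ℝ) * n))⁻¹ := by positivity
    nlinarith
  have h8 : 0 < 2 * ((n : ℝ) * n) := by positivity
  calc 2 * ((n : ℝ) * n) * Real.exp (-(N * δ ^ 2 / (4 * M)))
      ≤ 2 * ((n : ℝ) * n) * Real.exp (-L) := mul_le_mul_of_nonneg_left h4 h8.le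
    _ < 2 * ((n : ℝ) * n) * (1 / (2 * ((n : ℝ) * n))) := mul_lt_mul_of_pos_left h5 h8
    _ = 1 := by field_simp

/-- The numerical estimates. -/
lemma numer {p : ℝ} (hp : 0 < p) {n : ℕ} (hn : 2 ≤ n) {K : ℕ} (hKdef : K = Nat.log 2 n + 1) :
    (2 * (K : ℝ)) ^ p * (n * (K + 1) * Real.log n / Real.log (3 / 2))
        ≤ (8 * Real.log n) ^ p * (18 * n * Real.log n ^ 2) ∧
      1 ≤ (8 * Real.log n) ^ p * (18 * n * Real.log n ^ 2) ∧ 1 / 2 ≤ Real.log n ∧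
      Real.log (2 * ((n : ℝ) * n)) + 1 ≤ 5 * Real.log n ∧
      0 < Real.log (2 * ((n : ℝ) * n)) + 1 := by
  have hn1 : (2 : ℝ) ≤ n := by exact_mod_cast hn
  have hlog2 : (1 : ℝ) / 2 ≤ Real.log 2 := by
    have := Real.log_two_gt_d9
    linarith
  have hlog : Real.log 2 ≤ Real.log n := Real.log_le_log (by norm_num) hn1
  have hlp : 0 < Real.log n := by linarith
  have hk : (Nat.log 2 n : ℝ) ≤ 2 * Real.log n := by
    have h1 : 2 ^ Nat.log 2 n ≤ n := Nat.pow_log_le_self 2 (by omega)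
    have h2 : ((2 : ℝ)) ^ Nat.log 2 n ≤ n := by exact_mod_cast h1
    have h3 := Real.log_le_log (by positivity) h2
    rw [Real.log_pow] at h3
    have h4 : (0 : ℝ) ≤ Nat.log 2 n := Nat.cast_nonneg _
    nlinarith
  have hK4 : (K : ℝ) ≤ 4 * Real.log n := by
    rw [hKdef]; push_cast; linarith
  have hK6 : (K : ℝ) + 1 ≤ 6 * Real.log n := by linarith
  have hlog32 : (1 : ℝ) / 3 ≤ Real.log (3 / 2) := by
    have := Real.one_sub_inv_le_log_of_pos (show (0 : ℝ) < 3 / 2 by norm_num)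
    norm_num at this ⊢
    linarith
  have hB : n * (K + 1) * Real.log n / Real.log (3 / 2) ≤ 18 * n * Real.log n ^ 2 := by
    rw [div_le_iff₀ (by linarith)]
    have h1 : (n : ℝ) * (K + 1) * Real.log n ≤ n * (6 * Real.log n) * Real.log n := by
      refine mul_le_mul_of_nonneg_right (mul_le_mul_of_nonneg_left hK6 (by linarith)) hlp.le
    have h2 : 18 * (n : ℝ) * Real.log n ^ 2 * (1 / 3) ≤ 18 * n * Real.log n ^ 2 * Real.log (3 / 2) :=
      mul_le_mul_of_nonneg_left hlog32 (by positivity)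
    nlinarith
  refine ⟨?_, ?_, by linarith, ?_, ?_⟩
  · refine mul_le_mul ?_ hB ?_ (Real.rpow_nonneg (by positivity) p)
    · exact Real.rpow_le_rpow (by positivity) (by linarith) hp.le
    · have : 0 < Real.log (3 / 2) := by linarith
      positivity
  · have h1 : (1 : ℝ) ≤ (8 * Real.log n) ^ p := Real.one_le_rpow (by linarith) hp.le
    have h2 : (1 : ℝ) ≤ 18 * n * Real.log n ^ 2 := by nlinarith
    nlinarith
  · rw [Real.log_mul (by norm_num) (by positivity), Real.log_mul (by linarith) (by linarith)]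
    linarith
  · have : 0 ≤ Real.log (2 * ((n : ℝ) * n)) := Real.log_nonneg (by nlinarith)
    linarith

theorem admits_bound2 {p : ℝ} (hp : 0 < p) {D : ℝ} (hD : 1 < D) :
    ∃ C : ℝ, 0 < C ∧ ∀ n : ℕ, 2 ≤ n → ∃ d : ℕ,
      (d : ℝ) ≤ C * ((n : ℝ) * Real.log n ^ (p + 3)) ∧ Admits p D n d := by
  have hDp : 1 < D ^ p := Real.one_lt_rpow hD hp
  obtain ⟨δ, hδ, hδ1, hδD⟩ : ∃ δ : ℝ, 0 < δ ∧ δ < 1 ∧ 1 + δ = D ^ p * (1 - δ) := by
    refine ⟨(D ^ p - 1) / (D ^ p + 1), div_pos (by linarith) (by linarith), ?_, ?_⟩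
    · rw [div_lt_one (by linarith)]; linarith
    · have : D ^ p + 1 ≠ 0 := by linarith
      field_simp; ring
  refine ⟨360 * 8 ^ p / δ ^ 2 + 2 ^ (p + 3), by positivity, fun n hn => ?_⟩
  have hn1 : (2 : ℝ) ≤ n := by exact_mod_cast hn
  obtain ⟨K, hKdef⟩ : ∃ K, K = Nat.log 2 n + 1 := ⟨_, rfl⟩
  have hK : n < 2 ^ K := by rw [hKdef]; exact Nat.lt_pow_succ_log_self (by norm_num) n
  obtain ⟨hMM, hM1, hlog, hL5, hL0⟩ := numer hp hn hKdef
  have hlp : 0 < Real.log n := by linarith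
  obtain ⟨M, hM⟩ : ∃ M : ℝ, M = (8 * Real.log n) ^ p * (18 * n * Real.log n ^ 2) := ⟨_, rfl⟩
  rw [← hM] at hMM hM1
  have hM0 : 0 < M := by linarith
  obtain ⟨L, hL⟩ : ∃ L : ℝ, L = Real.log (2 * ((n : ℝ) * n)) + 1 := ⟨_, rfl⟩
  rw [← hL] at hL5 hL0
  obtain ⟨N, hN⟩ : ∃ N : ℕ, N = ⌈4 * M / δ ^ 2 * L⌉₊ := ⟨_, rfl⟩
  have hNge : 4 * M / δ ^ 2 * L ≤ N := by rw [hN]; exact Nat.le_ceil _
  have hNle : (N : ℝ) ≤ 4 * M / δ ^ 2 * L + 1 := by
    rw [hN]; exact (Nat.ceil_lt_add_one (by positivity)).le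
  have hN0 : 0 < N := by rw [hN]; exact Nat.ceil_pos.mpr (by positivity)
  rw [hL] at hNge
  have hNcond := exp_cond hn hM0 hδ hNge
  refine ⟨N, ?_, fun m x => ?_⟩
  · have e3 : Real.log n ^ (3 : ℝ) = Real.log n ^ 3 := by
      rw [← Real.rpow_natCast]; norm_num
    have e4 : Real.log n ^ (p + 3) = Real.log n ^ p * Real.log n ^ 3 := by
      rw [Real.rpow_add hlp, e3]
    have h1 : 4 * M / δ ^ 2 * L ≤ 4 * M / δ ^ 2 * (5 * Real.log n) :=
      mul_le_mul_of_nonneg_left hL5 (by positivity)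
    have h2 : 4 * M / δ ^ 2 * (5 * Real.log n)
        = 360 * 8 ^ p / δ ^ 2 * ((n : ℝ) * Real.log n ^ (p + 3)) := by
      rw [hM, e4, Real.mul_rpow (by norm_num) hlp.le]; ring
    have h3 : (1 : ℝ) ≤ 2 ^ (p + 3) * ((n : ℝ) * Real.log n ^ (p + 3)) := by
      have h4 : (1 : ℝ) ≤ (2 * Real.log n) ^ (p + 3) :=
        Real.one_le_rpow (by linarith) (by linarith)
      rw [Real.mul_rpow (by norm_num) hlp.le] at h4
      nlinarith
    linarith
  · obtain ⟨f, hf⟩ := core2 hp hδ hδ1 hn hN0 hK hM1 hMM hNcond x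
    exact ⟨f, (1 - δ) ^ p⁻¹, Real.rpow_pos_of_pos (by linarith) _, fun i j =>
      distort hp hD hδ1 hδD (x i - x j) (f i - f j) (hf i j).1 (hf i j).2⟩

end Vale.Agent.P249
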