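import Mathlib

/-!
# A sparse spanner without short cycles
-/

namespace Vale.Agent.P249

open Finset

/-- The greedy three-hop spanner. -/
theorem spanner {V : Type} [DecidableEq V] (dd : V → V → ℝ) (hsym : ∀ i j, dd i j = dd j i)
    (P : Finset (V × V)) : ∃ A : V → V → Prop, (∀ u v, A u v → A v u) ∧ (∀ u, ¬ A u u) ∧
      (∀ u v w v', u ≠ w → v ≠ v' → A u v → A v w → A u v' → A v' w → False) ∧
      (∀ u v, A u v → (u, v) ∈ P ∨ (v, u) ∈ P) ∧
      (∀ i j, (i, j) ∈ P → ∃ a b, (i = a ∨ A i a ∧ dd i a ≤ dd i j) ∧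
        (a = b ∨ A a b ∧ dd a b ≤ dd i j) ∧ (b = j ∨ A b j ∧ dd b j ≤ dd i j)) := by
  refine Finset.induction_on_max_value (fun e : V × V => dd e.1 e.2) P ?_ ?_
  · refine ⟨fun _ _ => False, fun _ _ h => h, fun _ h => h, fun _ _ _ _ _ _ h => h.elim,
      fun _ _ h => h.elim, fun i j h => ?_⟩
    simp at h
  · rintro ⟨i, j⟩ P - hmax ⟨A, hA1, hA2, hA3, hA4, hA5⟩
    have hle : ∀ u v, A u v → dd u v ≤ dd i j := by
      intro u v h
      rcases hA4 u v h with h' | h'
      · exact hmax _ h'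
      · rw [hsym u v]; exact hmax _ h'
    by_cases hij : i = j
    · refine ⟨A, hA1, hA2, hA3, fun u v h => ?_, fun k l h => ?_⟩
      · rcases hA4 u v h with h' | h'
        · exact Or.inl (Finset.mem_insert_of_mem h')
        · exact Or.inr (Finset.mem_insert_of_mem h')
      · rcases Finset.mem_insert.mp h with h | h
        · obtain ⟨rfl, rfl⟩ := Prod.mk.inj h
          exact ⟨k, k, Or.inl rfl, Or.inl rfl, Or.inl hij⟩
        · exact hA5 k l h
    by_cases hex : ∃ a b, (i = a ∨ A i a) ∧ (a = b ∨ A a b) ∧ (b = j ∨ A b j)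
    · obtain ⟨a, b, h1, h2, h3⟩ := hex
      refine ⟨A, hA1, hA2, hA3, fun u v h => ?_, fun k l h => ?_⟩
      · rcases hA4 u v h with h' | h'
        · exact Or.inl (Finset.mem_insert_of_mem h')
        · exact Or.inr (Finset.mem_insert_of_mem h')
      · rcases Finset.mem_insert.mp h with h | h
        · obtain ⟨rfl, rfl⟩ := Prod.mk.inj h
          exact ⟨a, b, h1.imp id fun h => ⟨h, hle _ _ h⟩, h2.imp id fun h => ⟨h, hle _ _ h⟩,
            h3.imp id fun h => ⟨h, hle _ _ h⟩⟩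
        · exact hA5 k l h
    · have hno : ∀ a b, A i a → A a b → A b j → False := fun a b h1 h2 h3 =>
        hex ⟨a, b, Or.inr h1, Or.inr h2, Or.inr h3⟩
      refine ⟨fun u v => A u v ∨ (u = i ∧ v = j) ∨ (u = j ∧ v = i), ?_, ?_, ?_, ?_, ?_⟩
      · intro u v h
        rcases h with h | ⟨h, h'⟩ | ⟨h, h'⟩
        · exact Or.inl (hA1 _ _ h)
        · exact Or.inr (Or.inr ⟨h', h⟩)
        · exact Or.inr (Or.inl ⟨h', h⟩)
      · intro u h
        rcases h with h | ⟨h, h'⟩ | ⟨h, h'⟩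
        · exact hA2 _ h
        · exact hij (h.symm.trans h')
        · exact hij (h'.symm.trans h)
      · intro u v w v' huw hvv h1 h2 h3 h4
        clear hex hA4 hA5 hmax hle hsym
        rcases h1 with h1 | ⟨h1, h1'⟩ | ⟨h1, h1'⟩ <;> rcases h2 with h2 | ⟨h2, h2'⟩ | ⟨h2, h2'⟩ <;>
        rcases h3 with h3 | ⟨h3, h3'⟩ | ⟨h3, h3'⟩ <;> rcases h4 with h4 | ⟨h4, h4'⟩ | ⟨h4, h4'⟩ <;>
        grind
      · intro u v h
        rcases h with h | ⟨rfl, rfl⟩ | ⟨rfl, rfl⟩
        · rcases hA4 u v h with h' | h'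
          · exact Or.inl (Finset.mem_insert_of_mem h')
          · exact Or.inr (Finset.mem_insert_of_mem h')
        · exact Or.inl (Finset.mem_insert_self _ _)
        · exact Or.inr (Finset.mem_insert_self _ _)
      · intro k l h
        rcases Finset.mem_insert.mp h with h | h
        · obtain ⟨rfl, rfl⟩ := Prod.mk.inj h
          exact ⟨k, k, Or.inl rfl, Or.inl rfl, Or.inr ⟨Or.inr (Or.inl ⟨rfl, rfl⟩), le_rfl⟩⟩
        · obtain ⟨a, b, h1, h2, h3⟩ := hA5 k l h
          exact ⟨a, b, h1.imp id fun h => ⟨Or.inl h.1, h.2⟩, h2.imp id fun h => ⟨Or.inl h.1, h.2⟩,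
            h3.imp id fun h => ⟨Or.inl h.1, h.2⟩⟩

/-- The number of edges of a graph without cycles of length four. -/
theorem count {n : ℕ} (hn : 1 ≤ n) (a : Fin n → Fin n → ℝ) (ha : ∀ u v, a u v = 0 ∨ a u v = 1)
    (h4 : ∀ u v w v', u ≠ w → v ≠ v' → a u v = 1 → a w v = 1 → a u v' = 1 → a w v' = 1 → False) :
    ∑ u, ∑ v, a u v ≤ 2 * ((n : ℝ) * Real.sqrt n) := by
  classical
  set e := ∑ u, ∑ v, a u v with he
  have ha0 : ∀ u v, 0 ≤ a u v := fun u v => by rcases ha u v with h | h <;> rw [h] <;> norm_num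
  have hsq : ∀ u v, a u v * a u v = a u v := fun u v => by
    rcases ha u v with h | h <;> rw [h] <;> norm_num
  have he0 : 0 ≤ e := Finset.sum_nonneg fun u _ => Finset.sum_nonneg fun v _ => ha0 u v
  have hcs : e ^ 2 ≤ n * ∑ v, (∑ u, a u v) ^ 2 := by
    rw [he, Finset.sum_comm]
    have := sq_sum_le_card_mul_sum_sq (s := (Finset.univ : Finset (Fin n)))
      (f := fun v => ∑ u, a u v)
    simpa using this
  have hin : ∑ v, (∑ u, a u v) ^ 2 = ∑ u, ∑ w, ∑ v, a u v * a w v := by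
    have e1 : ∀ v, (∑ u, a u v) ^ 2 = ∑ u, ∑ w, a u v * a w v := by
      intro v
      rw [sq, Finset.sum_mul_sum]
    rw [Finset.sum_congr rfl fun v _ => e1 v, Finset.sum_comm]
    refine Finset.sum_congr rfl fun u _ => ?_
    rw [Finset.sum_comm]
  have hb : ∀ u w, ∑ v, a u v * a w v ≤ (if u = w then ∑ v, a u v else 0) + 1 := by
    intro u w
    by_cases huw : u = w
    · subst huw
      rw [if_pos rfl, Finset.sum_congr rfl fun v _ => hsq u v]
      linarith
    · rw [if_neg huw, zero_add]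
      by_cases hex : ∃ v, a u v * a w v ≠ 0
      · obtain ⟨v, hv⟩ := hex
        have h1 : a u v = 1 := (ha u v).resolve_left (left_ne_zero_of_mul hv)
        have h2 : a w v = 1 := (ha w v).resolve_left (right_ne_zero_of_mul hv)
        rw [Finset.sum_eq_single v, h1, h2, mul_one]
        · intro v' _ hv'
          by_contra hne
          have h3 : a u v' = 1 := (ha u v').resolve_left (left_ne_zero_of_mul hne)
          have h5 : a w v' = 1 := (ha w v').resolve_left (right_ne_zero_of_mul hne)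
          exact h4 u v w v' huw (Ne.symm hv') h1 h2 h3 h5
        · intro h; exact absurd (Finset.mem_univ _) h
      · push Not at hex
        rw [Finset.sum_eq_zero fun v _ => hex v]
        norm_num
  have hS : ∑ v, (∑ u, a u v) ^ 2 ≤ e + n * n := by
    rw [hin]
    refine (Finset.sum_le_sum fun u _ => Finset.sum_le_sum fun w _ => hb u w).trans ?_
    refine le_of_eq ?_
    rw [he]
    have e2 : ∀ u, ∑ w, ((if u = w then ∑ v, a u v else 0) + 1) = ∑ v, a u v + (n : ℝ) := by
      intro u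
      rw [Finset.sum_add_distrib, Finset.sum_ite_eq]
      simp
    rw [Finset.sum_congr rfl fun u _ => e2 u, Finset.sum_add_distrib]
    simp
  have hfin : e ^ 2 ≤ n * (e + n * n) :=
    hcs.trans (mul_le_mul_of_nonneg_left hS (Nat.cast_nonneg n))
  have hn1 : (1 : ℝ) ≤ n := by exact_mod_cast hn
  set r := Real.sqrt n with hr
  have hr0 : 0 ≤ r := Real.sqrt_nonneg _
  have hr2 : r ^ 2 = n := Real.sq_sqrt (by linarith)
  have hr1 : 1 ≤ r := by rw [hr]; exact Real.one_le_sqrt.mpr hn1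
  by_contra hc
  push Not at hc
  rw [← hr2] at hfin hc
  have h5 : 2 * r ^ 2 ≤ e := by nlinarith
  have h6 : 4 * r ^ 6 < e ^ 2 := by nlinarith [pow_nonneg hr0 3]
  nlinarith [mul_nonneg he0 (sub_nonneg.mpr h5), pow_pos (lt_of_lt_of_le one_pos hr1) 6]

end Vale.Agent.P249
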