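import Vale.Agent.P249.Sampling
import Vale.Agent.P249.Spanner

/-!
# Dimension reduction in `L_p` with `n ^ (3/2) log n` coordinates
-/

namespace Vale.Agent.P249

open Finset

/-- The norm of `ℓ_p^m`. -/
noncomputable def pnorm (p : ℝ) {m : ℕ} (y : Fin m → ℝ) : ℝ := (∑ k, |y k| ^ p) ^ p⁻¹

/-- Every family of `n` points of every `ℓ_p^m` maps into `ℓ_p^d` with distortion at most `D`. -/
def Admits (p D : ℝ) (n d : ℕ) : Prop :=
  ∀ (m : ℕ) (x : Fin n → Fin m → ℝ), ∃ (f : Fin n → Fin d → ℝ) (s : ℝ), 0 < s ∧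
    ∀ i j, s * pnorm p (x i - x j) ≤ pnorm p (f i - f j) ∧
      pnorm p (f i - f j) ≤ D * s * pnorm p (x i - x j)

lemma rpow_le_root {p t w : ℝ} (hp : 0 < p) (ht : 0 ≤ t) (h : t ^ p ≤ w) : t ≤ w ^ p⁻¹ := by
  have h1 := Real.rpow_le_rpow (Real.rpow_nonneg ht p) h (inv_nonneg.mpr hp.le)
  rwa [Real.rpow_rpow_inv ht hp.ne'] at h1

/-- The core statement: sampling the coordinates. -/
theorem core {p : ℝ} (hp : 0 < p) {δ : ℝ} (hδ : 0 < δ) (hδ1 : δ < 1) {n : ℕ} (hn : 2 ≤ n) {N : ℕ}
    (hN0 : 0 < N)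
    (hN : 2 * ((n : ℝ) * n) * Real.exp (-(N * δ ^ 2 / (4 * (3 ^ p * (2 * ((n : ℝ) * Real.sqrt n)))))) < 1)
    {m : ℕ} (x : Fin n → Fin m → ℝ) :
    ∃ f : Fin n → Fin N → ℝ, ∀ i j, (1 - δ) * ∑ k, |x i k - x j k| ^ p ≤ ∑ l, |f i l - f j l| ^ p ∧
      ∑ l, |f i l - f j l| ^ p ≤ (1 + δ) * ∑ k, |x i k - x j k| ^ p := by
  classical
  set dp : Fin n → Fin n → ℝ := fun i j => ∑ k, |x i k - x j k| ^ p with hdp
  have hsym : ∀ i j, dp i j = dp j i := fun i j =>
    Finset.sum_congr rfl fun k _ => by rw [abs_sub_comm]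
  have hdp0 : ∀ i j, 0 ≤ dp i j := fun i j =>
    Finset.sum_nonneg fun k _ => Real.rpow_nonneg (abs_nonneg _) p
  have hle : ∀ i j k, |x i k - x j k| ^ p ≤ dp i j := fun i j k =>
    Finset.single_le_sum (f := fun k => |x i k - x j k| ^ p)
      (fun k _ => Real.rpow_nonneg (abs_nonneg _) p) (Finset.mem_univ k)
  obtain ⟨A, hA1, hA2, hA3, -, hA5⟩ := spanner dp hsym Finset.univ
  set a : Fin n → Fin n → ℝ := fun u v => if A u v then 1 else 0 with ha
  have ha01 : ∀ u v, a u v = 0 ∨ a u v = 1 := fun u v => by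
    by_cases h : A u v
    · right; simp only [ha, if_pos h]
    · left; simp only [ha, if_neg h]
  have haA : ∀ u v, a u v = 1 → A u v := fun u v h => by
    by_contra h'
    simp only [ha, if_neg h'] at h
    exact zero_ne_one h
  have ha0 : ∀ u v, 0 ≤ a u v := fun u v => by rcases ha01 u v with h | h <;> rw [h] <;> norm_num
  have hcount := count (by omega : 1 ≤ n) a ha01 (fun u v w v' huw hvv h1 h2 h3 h4 =>
    hA3 u v w v' huw hvv (haA _ _ h1) (hA1 _ _ (haA _ _ h2)) (haA _ _ h3) (hA1 _ _ (haA _ _ h4)))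
  set r : Fin n → Fin n → Fin m → ℝ := fun i j k => |x i k - x j k| ^ p / dp i j with hr
  have hr0 : ∀ i j k, 0 ≤ r i j k := fun i j k =>
    div_nonneg (Real.rpow_nonneg (abs_nonneg _) p) (hdp0 i j)
  have hrs : ∀ i j, ∑ k, r i j k ≤ 1 := fun i j => by
    simp only [hr]
    rw [← Finset.sum_div]
    exact div_self_le_one _
  set W : Fin m → ℝ := fun k => ∑ u, ∑ v, a u v * r u v k with hW
  have hW0 : ∀ k, 0 ≤ W k := fun k => Finset.sum_nonneg fun u _ => Finset.sum_nonneg fun v _ =>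
    mul_nonneg (ha0 u v) (hr0 u v k)
  set T := ∑ k, W k with hT
  have hTle : T ≤ 2 * ((n : ℝ) * Real.sqrt n) := by
    refine le_trans ?_ hcount
    rw [hT]
    simp only [hW]
    rw [Finset.sum_comm]
    refine Finset.sum_le_sum fun u _ => ?_
    rw [Finset.sum_comm]
    refine Finset.sum_le_sum fun v _ => ?_
    rw [← Finset.mul_sum]
    exact mul_le_of_le_one_right (ha0 u v) (hrs u v)
  have hedge : ∀ u v k, A u v → |x u k - x v k| ^ p ≤ dp u v * W k := by
    intro u v k huv
    have h1 : r u v k ≤ W k := by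
      have h2 : a u v * r u v k ≤ ∑ v, a u v * r u v k :=
        Finset.single_le_sum (f := fun v => a u v * r u v k)
          (fun v _ => mul_nonneg (ha0 u v) (hr0 u v k)) (Finset.mem_univ v)
      have h3 : ∑ v, a u v * r u v k ≤ W k :=
        Finset.single_le_sum (f := fun u => ∑ v, a u v * r u v k)
          (fun u _ => Finset.sum_nonneg fun v _ => mul_nonneg (ha0 u v) (hr0 u v k))
          (Finset.mem_univ u)
      have h4 : a u v = 1 := by simp only [ha, if_pos huv]
      rw [h4, one_mul] at h2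
      exact h2.trans h3
    by_cases h0 : dp u v = 0
    · have := hle u v k
      rw [h0] at this ⊢
      linarith
    · have hpos : 0 < dp u v := lt_of_le_of_ne (hdp0 u v) (Ne.symm h0)
      have : |x u k - x v k| ^ p = dp u v * r u v k := by
        simp only [hr]; field_simp
      rw [this]
      exact mul_le_mul_of_nonneg_left h1 hpos.le
  have hkey : ∀ i j k, |x i k - x j k| ^ p ≤ 3 ^ p * (dp i j * W k) := by
    intro i j k
    obtain ⟨b, c, h1, h2, h3⟩ := hA5 i j (Finset.mem_univ _)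
    have hw0 : 0 ≤ dp i j * W k := mul_nonneg (hdp0 i j) (hW0 k)
    have hstep : ∀ u v, (u = v ∨ A u v ∧ dp u v ≤ dp i j) →
        |x u k - x v k| ≤ (dp i j * W k) ^ p⁻¹ := by
      intro u v h
      refine rpow_le_root hp (abs_nonneg _) ?_
      rcases h with h | ⟨h, h'⟩
      · rw [h, sub_self, abs_zero, Real.zero_rpow hp.ne']; exact hw0
      · exact (hedge u v k h).trans (mul_le_mul_of_nonneg_right h' (hW0 k))
    have h4 := hstep i b h1
    have h5 := hstep b c h2
    have h6 := hstep c j h3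
    have h7 : |x i k - x j k| ≤ 3 * (dp i j * W k) ^ p⁻¹ := by
      have e : x i k - x j k = (x i k - x b k) + (x b k - x c k) + (x c k - x j k) := by ring
      rw [e]
      have h8 := abs_add_le ((x i k - x b k) + (x b k - x c k)) (x c k - x j k)
      have h9 := abs_add_le (x i k - x b k) (x b k - x c k)
      linarith
    have h8 := Real.rpow_le_rpow (abs_nonneg _) h7 hp.le
    rwa [Real.mul_rpow (by norm_num) (Real.rpow_nonneg hw0 _), Real.rpow_inv_rpow hw0 hp.ne']
      at h8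
  have h3p : (0 : ℝ) < 3 ^ p := Real.rpow_pos_of_pos (by norm_num) p
  have hrW : ∀ i j k, r i j k ≤ 3 ^ p * W k := by
    intro i j k
    by_cases h0 : dp i j = 0
    · have : r i j k = 0 := by simp only [hr]; rw [h0, div_zero]
      rw [this]
      exact mul_nonneg h3p.le (hW0 k)
    · have hpos : 0 < dp i j := lt_of_le_of_ne (hdp0 i j) (Ne.symm h0)
      simp only [hr]
      rw [div_le_iff₀ hpos]
      have := hkey i j k
      linarith
  by_cases hJ : ∀ i j, dp i j = 0
  · refine ⟨fun _ _ => 0, fun i j => ?_⟩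
    have h1 : ∑ l : Fin N, |(0 : ℝ) - 0| ^ p = 0 := by
      refine Finset.sum_eq_zero fun l _ => ?_
      rw [sub_self, abs_zero, Real.zero_rpow hp.ne']
    have h2 : ∑ k, |x i k - x j k| ^ p = 0 := hJ i j
    rw [h2]
    simp only [h1]
    simp
  push Not at hJ
  obtain ⟨i₀, j₀, h₀⟩ := hJ
  have hTpos : 0 < T := by
    have h1 : ∑ k, r i₀ j₀ k = 1 := by
      simp only [hr]
      rw [← Finset.sum_div]
      exact div_self h₀
    have h2 : ∑ k, r i₀ j₀ k ≤ 3 ^ p * T := by
      rw [hT, Finset.mul_sum]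
      exact Finset.sum_le_sum fun k _ => hrW _ _ k
    by_contra hc
    push Not at hc
    nlinarith
  let J : Type := {e : Fin n × Fin n // 0 < dp e.1 e.2}
  set q : Fin m → ℝ := fun k => W k / T with hq
  set Y : J → Fin m → ℝ := fun e k => r e.1.1 e.1.2 k * T / W k with hY
  have hM1 : (1 : ℝ) ≤ 3 ^ p * (2 * ((n : ℝ) * Real.sqrt n)) := by
    have hn1 : (1 : ℝ) ≤ n := by exact_mod_cast (by omega : 1 ≤ n)
    have h1 : (1 : ℝ) ≤ 3 ^ p := Real.one_le_rpow (by norm_num) hp.le
    have h2 : (1 : ℝ) ≤ Real.sqrt n := Real.one_le_sqrt.mpr hn1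
    nlinarith [mul_le_mul hn1 h2 (by norm_num) (by linarith)]
  have hcard : (Fintype.card J : ℝ) ≤ (n : ℝ) * n := by
    have : Fintype.card J ≤ Fintype.card (Fin n × Fin n) := Fintype.card_subtype_le _
    rw [Fintype.card_prod, Fintype.card_fin] at this
    exact_mod_cast this
  obtain ⟨κ, hκ, hκ2⟩ := sampling q (fun k => div_nonneg (hW0 k) hTpos.le)
    (by simp only [hq]; rw [← Finset.sum_div]; exact div_self hTpos.ne') Y hM1
    (fun e k => div_nonneg (mul_nonneg (hr0 _ _ k) hTpos.le) (hW0 k))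
    (fun e k => by
      simp only [hY]
      by_cases h : W k = 0
      · rw [h, div_zero]; linarith
      · have hWp : 0 < W k := lt_of_le_of_ne (hW0 k) (Ne.symm h)
        rw [div_le_iff₀ hWp]
        have h1 := hrW e.1.1 e.1.2 k
        calc r e.1.1 e.1.2 k * T ≤ 3 ^ p * W k * T := mul_le_mul_of_nonneg_right h1 hTpos.le
          _ = 3 ^ p * T * W k := by ring
          _ ≤ 3 ^ p * (2 * ((n : ℝ) * Real.sqrt n)) * W k :=
            mul_le_mul_of_nonneg_right (mul_le_mul_of_nonneg_left hTle h3p.le) hWp.le)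
    (fun e => by
      have h1 : ∀ k, q k * Y e k = r e.1.1 e.1.2 k := by
        intro k
        simp only [hq, hY]
        by_cases h : W k = 0
        · have h2 := hrW e.1.1 e.1.2 k
          rw [h, mul_zero] at h2
          rw [h, zero_div, zero_mul]
          exact le_antisymm (hr0 _ _ k) h2
        · field_simp
      rw [Finset.sum_congr rfl fun k _ => h1 k]
      simp only [hr]
      rw [← Finset.sum_div]
      exact div_self e.2.ne')
    hδ hδ1.le N (lt_of_le_of_lt (mul_le_mul_of_nonneg_right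
      (mul_le_mul_of_nonneg_left hcard (by norm_num)) (Real.exp_pos _).le) hN)
  have hNr : (0 : ℝ) < N := by exact_mod_cast hN0
  refine ⟨fun i l => x i (κ l) * (1 / (N * q (κ l))) ^ p⁻¹, fun i j => ?_⟩
  have hterm : ∀ l, |x i (κ l) * (1 / (N * q (κ l))) ^ p⁻¹ - x j (κ l) * (1 / (N * q (κ l))) ^ p⁻¹| ^ p
      = |x i (κ l) - x j (κ l)| ^ p * (1 / (N * q (κ l))) := by
    intro l
    have hc0 : 0 ≤ 1 / (N * q (κ l)) := by
      have := hκ l
      positivity
    rw [← sub_mul, abs_mul, abs_of_nonneg (Real.rpow_nonneg hc0 _),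
      Real.mul_rpow (abs_nonneg _) (Real.rpow_nonneg hc0 _), Real.rpow_inv_rpow hc0 hp.ne']
  simp only [hterm]
  show (1 - δ) * dp i j ≤ _ ∧ _ ≤ (1 + δ) * dp i j
  by_cases h0 : dp i j = 0
  · have h1 : ∑ l, |x i (κ l) - x j (κ l)| ^ p * (1 / (N * q (κ l))) = 0 := by
      refine Finset.sum_eq_zero fun l _ => ?_
      have h2 := hle i j (κ l)
      rw [h0] at h2
      rw [le_antisymm h2 (Real.rpow_nonneg (abs_nonneg _) p), zero_mul]
    rw [h1, h0, mul_zero, mul_zero]
    exact ⟨le_rfl, le_rfl⟩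
  · have hpos : 0 < dp i j := lt_of_le_of_ne (hdp0 i j) (Ne.symm h0)
    obtain ⟨hl, hu⟩ := hκ2 ⟨(i, j), hpos⟩
    have hY2 : ∀ l, |x i (κ l) - x j (κ l)| ^ p * (1 / (N * q (κ l)))
        = dp i j / N * Y ⟨(i, j), hpos⟩ (κ l) := by
      intro l
      have h1 := hκ l
      simp only [hq] at h1
      have hWp : 0 < W (κ l) := by
        by_contra hc
        have : W (κ l) = 0 := le_antisymm (not_lt.mp hc) (hW0 _)
        rw [this, zero_div] at h1
        exact lt_irrefl _ h1
      simp only [hq, hY, hr]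
      field_simp
    rw [Finset.sum_congr rfl fun l _ => hY2 l, ← Finset.mul_sum]
    have hc : 0 < dp i j / N := div_pos hpos hNr
    constructor
    · calc (1 - δ) * dp i j = dp i j / N * ((1 - δ) * N) := by field_simp
        _ ≤ _ := mul_le_mul_of_nonneg_left hl hc.le
    · calc _ ≤ dp i j / N * ((1 + δ) * N) := mul_le_mul_of_nonneg_left hu hc.le
        _ = (1 + δ) * dp i j := by field_simp

end Vale.Agent.P249
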