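import Mathlib

/-!
# A nearly linear size spanner with logarithmic hops
-/

namespace Vale.Agent.P249

open Finset

/-- `v` is reached from `u` by at most `s` steps of `A`. -/
def reach {V : Type} (A : V → V → Prop) : ℕ → V → V → Prop
  | 0, u, v => u = v
  | s + 1, u, v => ∃ w, (u = w ∨ A u w) ∧ reach A s w v

lemma reach_mono {V : Type} {A A' : V → V → Prop} (h : ∀ u v, A u v → A' u v) :
    ∀ s u v, reach A s u v → reach A' s u v := by
  intro s
  induction s with
  | zero => intro u v h'; exact h'
  | succ s ih =>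
    rintro u v ⟨w, hw, h'⟩
    exact ⟨w, hw.imp id (h u w), ih w v h'⟩

lemma reach_comp {V : Type} {A : V → V → Prop} :
    ∀ s t u w v, reach A s u w → reach A t w v → reach A (s + t) u v := by
  intro s
  induction s with
  | zero =>
    intro t u w v h h'
    have e : u = w := h
    rw [zero_add, e]; exact h'
  | succ s ih =>
    rintro t u w v ⟨z, hz, h⟩ h'
    have e : s + 1 + t = (s + t) + 1 := by omega
    rw [e]
    exact ⟨z, hz, ih t z w v h h'⟩

lemma reach_refl {V : Type} {A : V → V → Prop} (s : ℕ) (u : V) : reach A s u u := by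
  induction s with
  | zero => exact rfl
  | succ s ih => exact ⟨u, Or.inl rfl, ih⟩

lemma reach_le {V : Type} {A : V → V → Prop} {s t : ℕ} (h : s ≤ t) {u v : V}
    (h' : reach A s u v) : reach A t u v := by
  have := reach_comp s (t - s) u v v h' (reach_refl _ _)
  rwa [Nat.add_sub_cancel' h] at this

lemma reach_symm {V : Type} {A : V → V → Prop} (hA : ∀ u v, A u v → A v u) :
    ∀ s u v, reach A s u v → reach A s v u := by
  intro s
  induction s with
  | zero => intro u v h; exact Eq.symm h
  | succ s ih =>
    rintro u v ⟨w, hw, h⟩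
    have h1 := ih w v h
    have h2 : reach A 1 w u := ⟨u, hw.imp Eq.symm (hA u w), rfl⟩
    exact reach_comp s 1 v w u h1 h2

open Classical in
/-- Hop balls. -/
noncomputable def ball {n : ℕ} (A : Fin n → Fin n → Prop) (s : ℕ) (u : Fin n) : Finset (Fin n) :=
  Finset.univ.filter (fun v => reach A s u v)

lemma mem_ball {n : ℕ} {A : Fin n → Fin n → Prop} {s : ℕ} {u v : Fin n} :
    v ∈ ball A s u ↔ reach A s u v := by
  unfold ball; simp

lemma ball_pos {n : ℕ} (A : Fin n → Fin n → Prop) (s : ℕ) (u : Fin n) : 1 ≤ (ball A s u).card :=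
  Finset.card_pos.mpr ⟨u, mem_ball.mpr (reach_refl s u)⟩

lemma ball_le {n : ℕ} (A : Fin n → Fin n → Prop) (s : ℕ) (u : Fin n) : (ball A s u).card ≤ n := by
  have := Finset.card_le_univ (ball A s u)
  simpa using this

/-- The potential. -/
noncomputable def pot {n : ℕ} (K : ℕ) (A : Fin n → Fin n → Prop) : ℝ :=
  ∑ e ∈ (Finset.univ : Finset (Fin n)) ×ˢ Finset.range (K + 1), Real.log ((ball A e.2 e.1).card)

lemma pot_le {n : ℕ} (K : ℕ) (A : Fin n → Fin n → Prop) :
    pot K A ≤ n * (K + 1) * Real.log n := by
  unfold pot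
  refine (Finset.sum_le_card_nsmul _ _ (Real.log n) fun e _ => ?_).trans (le_of_eq ?_)
  · refine Real.log_le_log ?_ ?_
    · exact_mod_cast ball_pos A e.2 e.1
    · exact_mod_cast ball_le A e.2 e.1
  · rw [nsmul_eq_mul, Finset.card_product]
    simp

/-- One greedy step increases the potential. -/
lemma pot_step {n K : ℕ} (hK : n < 2 ^ K) {A A' : Fin n → Fin n → Prop}
    (hA : ∀ u v, A u v → A v u) (hAA : ∀ u v, A u v → A' u v) {i j : Fin n} (hij : A' i j)
    (hji : A' j i) (hno : ¬ reach A (2 * K) i j) :
    pot K A + Real.log (3 / 2) ≤ pot K A' := by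
  classical
  have hmono : ∀ s u, (ball A s u).card ≤ (ball A' s u).card := fun s u =>
    Finset.card_le_card fun v hv => mem_ball.mpr (reach_mono hAA s u v (mem_ball.mp hv))
  have key : ∀ (a b : Fin n) (s : ℕ), s < K → A' a b → ¬ reach A (2 * K) a b →
      (ball A (s + 1) a).card + (ball A s b).card ≤ (ball A' (s + 1) a).card := by
    intro a b s hs hab hnab
    have hdisj : Disjoint (ball A (s + 1) a) (ball A s b) := by
      rw [Finset.disjoint_left]
      intro w h1 h2
      have h3 := reach_comp (s + 1) s a w b (mem_ball.mp h1)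
        (reach_symm hA s b w (mem_ball.mp h2))
      exact hnab (reach_le (by omega) h3)
    rw [← Finset.card_union_of_disjoint hdisj]
    refine Finset.card_le_card fun w hw => ?_
    rcases Finset.mem_union.mp hw with h | h
    · exact mem_ball.mpr (reach_mono hAA _ a w (mem_ball.mp h))
    · exact mem_ball.mpr ⟨b, Or.inr hab, reach_mono hAA s b w (mem_ball.mp h)⟩
  have hno' : ¬ reach A (2 * K) j i := fun h => hno (reach_symm hA _ j i h)
  have hex : ∃ s, s < K ∧ min (ball A (s + 1) i).card (ball A (s + 1) j).card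
      ≤ 2 * min (ball A s i).card (ball A s j).card := by
    by_contra hc
    push Not at hc
    have hg : ∀ s, s ≤ K → 2 ^ s ≤ min (ball A s i).card (ball A s j).card := by
      intro s
      induction s with
      | zero =>
        intro _
        rw [pow_zero]
        exact le_min (ball_pos A 0 i) (ball_pos A 0 j)
      | succ s ih =>
        intro hs
        have h1 := ih (by omega)
        have h2 := hc s (by omega)
        rw [pow_succ]
        omega
    have h1 := hg K le_rfl
    have h2 := ball_le A K i
    have h3 : min (ball A K i).card (ball A K j).card ≤ (ball A K i).card := min_le_left _ _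
    omega
  obtain ⟨s, hs, hmin⟩ := hex
  have hfin : ∃ (a : Fin n), 3 * (ball A (s + 1) a).card ≤ 2 * (ball A' (s + 1) a).card := by
    rcases le_total (ball A (s + 1) i).card (ball A (s + 1) j).card with h | h
    · refine ⟨i, ?_⟩
      have h1 := key i j s hs hij hno
      rw [min_eq_left h] at hmin
      have h2 : min (ball A s i).card (ball A s j).card ≤ (ball A s j).card := min_le_right _ _
      omega
    · refine ⟨j, ?_⟩
      have h1 := key j i s hs hji hno'
      rw [min_eq_right h] at hmin
      have h2 : min (ball A s i).card (ball A s j).card ≤ (ball A s i).card := min_le_left _ _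
      omega
  obtain ⟨a, ha⟩ := hfin
  have hpos : ∀ (B : Fin n → Fin n → Prop) s u, (0 : ℝ) < (ball B s u).card := fun B s u => by
    exact_mod_cast ball_pos B s u
  have h1 : Real.log (3 / 2) ≤ Real.log ((ball A' (s + 1) a).card)
      - Real.log ((ball A (s + 1) a).card) := by
    rw [← Real.log_div (hpos _ _ _).ne' (hpos _ _ _).ne']
    refine Real.log_le_log (by norm_num) ?_
    rw [div_le_div_iff₀ (by norm_num) (hpos _ _ _)]
    have : (3 : ℝ) * (ball A (s + 1) a).card ≤ 2 * (ball A' (s + 1) a).card := by
      exact_mod_cast ha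
    linarith
  have h2 : Real.log ((ball A' (s + 1) a).card) - Real.log ((ball A (s + 1) a).card)
      ≤ ∑ e ∈ (Finset.univ : Finset (Fin n)) ×ˢ Finset.range (K + 1),
        (Real.log ((ball A' e.2 e.1).card) - Real.log ((ball A e.2 e.1).card)) := by
    refine Finset.single_le_sum
      (f := fun e : Fin n × ℕ => Real.log ((ball A' e.2 e.1).card)
        - Real.log ((ball A e.2 e.1).card)) (fun e _ => ?_)
      (a := (a, s + 1)) (Finset.mem_product.mpr ⟨Finset.mem_univ _, Finset.mem_range.mpr (by omega)⟩)
    have := Real.log_le_log (hpos A e.2 e.1)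
      (by exact_mod_cast hmono e.2 e.1 : ((ball A e.2 e.1).card : ℝ) ≤ (ball A' e.2 e.1).card)
    linarith
  rw [Finset.sum_sub_distrib] at h2
  unfold pot
  linarith

/-- The symmetric relation of a set of pairs. -/
def rel {n : ℕ} (E : Finset (Fin n × Fin n)) (u v : Fin n) : Prop := (u, v) ∈ E ∨ (v, u) ∈ E

theorem spanner2 {n K : ℕ} (hK : n < 2 ^ K) (dd : Fin n → Fin n → ℝ)
    (hsym : ∀ i j, dd i j = dd j i) (P : Finset (Fin n × Fin n)) :
    ∃ E : Finset (Fin n × Fin n), (∀ e ∈ E, e ∈ P) ∧
      (E.card : ℝ) * Real.log (3 / 2) ≤ pot K (rel E) ∧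
      ∀ i j, (i, j) ∈ P → reach (fun u v => rel E u v ∧ dd u v ≤ dd i j) (2 * K) i j := by
  classical
  refine Finset.induction_on_max_value (fun e : Fin n × Fin n => dd e.1 e.2) P ?_ ?_
  · refine ⟨∅, fun e he => by simp at he, ?_, fun i j h => by simp at h⟩
    rw [Finset.card_empty, Nat.cast_zero, zero_mul]
    refine Finset.sum_nonneg fun e _ => Real.log_nonneg ?_
    exact_mod_cast ball_pos _ e.2 e.1
  · rintro ⟨i, j⟩ P hnot hmax ⟨E, hE1, hE2, hE3⟩
    have hle : ∀ u v, rel E u v → dd u v ≤ dd i j := by
      intro u v h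
      rcases h with h' | h'
      · exact hmax _ (hE1 _ h')
      · rw [hsym u v]; exact hmax _ (hE1 _ h')
    have hn1 : 1 ≤ n := by have := i.2; omega
    have hK1 : 1 ≤ K := by
      rcases Nat.eq_zero_or_pos K with h | h
      · rw [h, pow_zero] at hK; omega
      · exact h
    by_cases hex : reach (rel E) (2 * K) i j
    · refine ⟨E, fun e he => Finset.mem_insert_of_mem (hE1 e he), hE2, fun k l h => ?_⟩
      rcases Finset.mem_insert.mp h with h | h
      · obtain ⟨rfl, rfl⟩ := Prod.mk.inj h
        exact reach_mono (fun u v h => ⟨h, hle u v h⟩) _ _ _ hex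
      · exact hE3 k l h
    · have hsub : ∀ u v, rel E u v → rel (insert (i, j) E) u v := fun u v h =>
        h.imp Finset.mem_insert_of_mem Finset.mem_insert_of_mem
      have hij : rel (insert (i, j) E) i j := Or.inl (Finset.mem_insert_self _ _)
      have hji : rel (insert (i, j) E) j i := Or.inr (Finset.mem_insert_self _ _)
      refine ⟨insert (i, j) E, fun e he => ?_, ?_, fun k l h => ?_⟩
      · rcases Finset.mem_insert.mp he with h | h
        · rw [h]; exact Finset.mem_insert_self _ _
        · exact Finset.mem_insert_of_mem (hE1 e h)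
      · have h1 := pot_step hK (A := rel E) (A' := rel (insert (i, j) E))
          (fun u v h => h.symm) hsub hij hji hex
        rw [Finset.card_insert_of_notMem (fun h => hnot (hE1 _ h))]
        push_cast
        linarith
      · rcases Finset.mem_insert.mp h with h | h
        · obtain ⟨rfl, rfl⟩ := Prod.mk.inj h
          refine reach_le (by omega : 1 ≤ 2 * K) ⟨l, Or.inr ⟨hij, le_rfl⟩, rfl⟩
        · exact reach_mono (fun u v h => ⟨hsub u v h.1, h.2⟩) _ _ _ (hE3 k l h)

end Vale.Agent.P249
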