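import Mathlib

/-!
# Sampling lemma
-/

namespace Vale.Agent.P249

open Finset

lemma exp_bd {s : ℝ} (hs : |s| ≤ 1) : Real.exp s ≤ 1 + s + s ^ 2 := by
  have := Real.abs_exp_sub_one_sub_id_le hs
  have h2 := (abs_le.mp this).2
  linarith

/-- Exponential moment. -/
lemma moment {K : Type} [Fintype K] (q : K → ℝ) (hq : ∀ k, 0 ≤ q k) (hq1 : ∑ k, q k = 1)
    (Y : K → ℝ) {M : ℝ} (hM : 0 < M) (hY0 : ∀ k, 0 ≤ Y k) (hYM : ∀ k, Y k ≤ M)
    (hmean : ∑ k, q k * Y k = 1) {l : ℝ} (hl : |l| * M ≤ 1) :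
    ∑ k, q k * Real.exp (l * Y k) ≤ Real.exp (l + l ^ 2 * M) := by
  have h1 : ∀ k, q k * Real.exp (l * Y k) ≤ q k + l * (q k * Y k) + l ^ 2 * M * (q k * Y k) := by
    intro k
    have hs : |l * Y k| ≤ 1 := by
      rw [abs_mul, abs_of_nonneg (hY0 k)]
      exact (mul_le_mul_of_nonneg_left (hYM k) (abs_nonneg l)).trans hl
    have h2 := exp_bd hs
    have h3 : (l * Y k) ^ 2 ≤ l ^ 2 * M * Y k := by
      rw [mul_pow]
      have : Y k ^ 2 ≤ M * Y k := by nlinarith [hY0 k, hYM k]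
      nlinarith [sq_nonneg l]
    have h4 : Real.exp (l * Y k) ≤ 1 + l * Y k + l ^ 2 * M * Y k := by linarith
    calc q k * Real.exp (l * Y k) ≤ q k * (1 + l * Y k + l ^ 2 * M * Y k) :=
          mul_le_mul_of_nonneg_left h4 (hq k)
      _ = _ := by ring
  refine (Finset.sum_le_sum fun k _ => h1 k).trans ?_
  rw [Finset.sum_add_distrib, Finset.sum_add_distrib, ← Finset.mul_sum, ← Finset.mul_sum, hmean,
    hq1]
  have := Real.add_one_le_exp (l + l ^ 2 * M)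
  linarith

lemma moment_pow {K : Type} [Fintype K] (q : K → ℝ) (hq : ∀ k, 0 ≤ q k) (hq1 : ∑ k, q k = 1)
    (Y : K → ℝ) {M : ℝ} (hM : 0 < M) (hY0 : ∀ k, 0 ≤ Y k) (hYM : ∀ k, Y k ≤ M)
    (hmean : ∑ k, q k * Y k = 1) {l : ℝ} (hl : |l| * M ≤ 1) (N : ℕ) (c : ℝ) :
    ∑ κ : Fin N → K, (∏ i, q (κ i)) * Real.exp (l * ∑ i, Y (κ i) - l * c * N)
      ≤ Real.exp (N * (l + l ^ 2 * M - l * c)) := by
  have e : ∀ κ : Fin N → K, (∏ i, q (κ i)) * Real.exp (l * ∑ i, Y (κ i) - l * c * N)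
      = (∏ i, q (κ i) * Real.exp (l * Y (κ i))) * Real.exp (-(l * c * N)) := by
    intro κ
    rw [sub_eq_add_neg, Real.exp_add, Finset.mul_sum, Real.exp_sum, Finset.prod_mul_distrib]
    ring
  rw [Finset.sum_congr rfl fun κ _ => e κ, ← Finset.sum_mul,
    ← Fintype.sum_pow (fun k => q k * Real.exp (l * Y k)) N]
  have h := moment q hq hq1 Y hM hY0 hYM hmean hl
  have h0 : 0 ≤ ∑ k, q k * Real.exp (l * Y k) :=
    Finset.sum_nonneg fun k _ => mul_nonneg (hq k) (Real.exp_pos _).le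
  calc (∑ k, q k * Real.exp (l * Y k)) ^ N * Real.exp (-(l * c * N))
      ≤ Real.exp (l + l ^ 2 * M) ^ N * Real.exp (-(l * c * N)) :=
        mul_le_mul_of_nonneg_right (pow_le_pow_left₀ h0 h N) (Real.exp_pos _).le
    _ = Real.exp (N * (l + l ^ 2 * M - l * c)) := by
        rw [← Real.exp_nat_mul, ← Real.exp_add]
        congr 1
        ring

/-- The sampling lemma. -/
theorem sampling {K J : Type} [Fintype K] [Fintype J] (q : K → ℝ) (hq : ∀ k, 0 ≤ q k)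
    (hq1 : ∑ k, q k = 1) (Y : J → K → ℝ) {M : ℝ} (hM : 1 ≤ M) (hY0 : ∀ j k, 0 ≤ Y j k)
    (hYM : ∀ j k, Y j k ≤ M) (hmean : ∀ j, ∑ k, q k * Y j k = 1) {δ : ℝ} (hδ : 0 < δ)
    (hδ1 : δ ≤ 1) (N : ℕ)
    (hN : 2 * (Fintype.card J : ℝ) * Real.exp (-(N * δ ^ 2 / (4 * M))) < 1) :
    ∃ κ : Fin N → K, (∀ i, 0 < q (κ i)) ∧
      ∀ j, (1 - δ) * N ≤ ∑ i, Y j (κ i) ∧ ∑ i, Y j (κ i) ≤ (1 + δ) * N := by
  classical
  by_contra hcon
  push Not at hcon
  have hM0 : 0 < M := by linarith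
  set l : ℝ := δ / (2 * M) with hl
  have hl0 : 0 < l := by positivity
  have hlM : l * M = δ / 2 := by rw [hl]; field_simp
  have hl1 : |l| * M ≤ 1 := by rw [abs_of_pos hl0, hlM]; linarith
  have hl1' : |(-l)| * M ≤ 1 := by rw [abs_neg]; exact hl1
  have hU := fun j => moment_pow q hq hq1 (Y j) hM0 (hY0 j) (hYM j) (hmean j) hl1 N (1 + δ)
  have hL := fun j => moment_pow q hq hq1 (Y j) hM0 (hY0 j) (hYM j) (hmean j) hl1' N (1 - δ)
  have eU : (N : ℝ) * (l + l ^ 2 * M - l * (1 + δ)) = -(N * δ ^ 2 / (4 * M)) := by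
    rw [hl]; field_simp; ring
  have eL : (N : ℝ) * (-l + (-l) ^ 2 * M - (-l) * (1 - δ)) = -(N * δ ^ 2 / (4 * M)) := by
    rw [hl]; field_simp; ring
  have hw1 : ∑ κ : Fin N → K, ∏ i, q (κ i) = 1 := by
    rw [← Fintype.sum_pow, hq1, one_pow]
  have hbig : ∑ κ : Fin N → K, ∏ i, q (κ i) ≤ ∑ κ : Fin N → K, ∑ j : J,
      ((∏ i, q (κ i)) * Real.exp (l * ∑ i, Y j (κ i) - l * (1 + δ) * N)
        + (∏ i, q (κ i)) * Real.exp (-l * ∑ i, Y j (κ i) - -l * (1 - δ) * N)) := by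
    refine Finset.sum_le_sum fun κ _ => ?_
    have hp0 : 0 ≤ ∏ i, q (κ i) := Finset.prod_nonneg fun i _ => hq _
    have hnn : ∀ j ∈ (Finset.univ : Finset J), 0 ≤
        ((∏ i, q (κ i)) * Real.exp (l * ∑ i, Y j (κ i) - l * (1 + δ) * N)
        + (∏ i, q (κ i)) * Real.exp (-l * ∑ i, Y j (κ i) - -l * (1 - δ) * N)) := by
      intro j _
      have := Real.exp_pos (l * ∑ i, Y j (κ i) - l * (1 + δ) * N)
      have := Real.exp_pos (-l * ∑ i, Y j (κ i) - -l * (1 - δ) * N)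
      positivity
    by_cases hall : ∀ i, 0 < q (κ i)
    · obtain ⟨j, hj⟩ := hcon κ hall
      refine le_trans ?_ (Finset.single_le_sum hnn (Finset.mem_univ j))
      have h1 := Real.exp_pos (l * ∑ i, Y j (κ i) - l * (1 + δ) * N)
      have h2 := Real.exp_pos (-l * ∑ i, Y j (κ i) - -l * (1 - δ) * N)
      by_cases hlow : (1 - δ) * N ≤ ∑ i, Y j (κ i)
      · have h3 := hj hlow
        have h4 : 1 ≤ Real.exp (l * ∑ i, Y j (κ i) - l * (1 + δ) * N) := by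
          refine Real.one_le_exp ?_
          nlinarith
        nlinarith [mul_nonneg hp0 h2.le]
      · push Not at hlow
        have h4 : 1 ≤ Real.exp (-l * ∑ i, Y j (κ i) - -l * (1 - δ) * N) := by
          refine Real.one_le_exp ?_
          nlinarith
        nlinarith [mul_nonneg hp0 h1.le]
    · push Not at hall
      obtain ⟨i, hi⟩ := hall
      have : ∏ i, q (κ i) = 0 :=
        Finset.prod_eq_zero (Finset.mem_univ i) (le_antisymm hi (hq _))
      rw [this]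
      refine Finset.sum_nonneg fun j _ => ?_
      simp
  rw [hw1, Finset.sum_comm] at hbig
  have hsum : ∑ j : J, ∑ κ : Fin N → K,
      ((∏ i, q (κ i)) * Real.exp (l * ∑ i, Y j (κ i) - l * (1 + δ) * N)
        + (∏ i, q (κ i)) * Real.exp (-l * ∑ i, Y j (κ i) - -l * (1 - δ) * N))
      ≤ ∑ j : J, 2 * Real.exp (-(N * δ ^ 2 / (4 * M))) := by
    refine Finset.sum_le_sum fun j _ => ?_
    rw [Finset.sum_add_distrib]
    have h1 := hU j
    have h2 := hL j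
    rw [eU] at h1
    rw [eL] at h2
    linarith
  rw [Finset.sum_const, nsmul_eq_mul, Finset.card_univ] at hsum
  have := hbig.trans hsum
  nlinarith

end Vale.Agent.P249
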